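import Vale.Agent.P028X.Main

/-! P028A: the position of a scale class measured from an arbitrary anchor in each slice
`8 ^ k ≤ log q < 8 ^ (k+1)`. -/

namespace Vale.Agent.P028A

open Finset Vale.Agent.P028
open Vale.Agent.P028.MainAux (cls)
open Vale.Agent.P028X (slice mu_nonneg_X)

/-- Injective position of the class `m` seen from the anchor `a`. -/
def enc (m a : ℕ) : ℕ := if m ≤ a then 2 * (a - m) + 2 else 2 * (m - a) + 1

lemma enc_pos (m a : ℕ) : 0 < enc m a := by unfold enc; split_ifs <;> omega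

lemma enc_inj {m m' a : ℕ} (h : enc m a = enc m' a) : m = m' := by
  unfold enc at h; split_ifs at h <;> omega

lemma enc_le (m a : ℕ) : (enc m a : ℝ) ≤ 2 * |(m : ℝ) - a| + 2 := by
  unfold enc
  split_ifs with h
  · push_cast [Nat.cast_sub h]
    linarith [neg_le_abs ((m : ℝ) - a)]
  · push_cast [Nat.cast_sub (not_le.1 h).le]
    linarith [le_abs_self ((m : ℝ) - a)]

/-- The class of the anchor of slice `k`. -/
noncomputable def aidx (G : ℕ → ℝ) (k : ℕ) : ℕ :=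
  ⌊Real.log (max 1 (G k)) / Real.log (1 + zeta0)⌋₊

/-- The position of the class of `q` seen from the anchor of its slice. -/
noncomputable def ppos (ψ : ℕ → ℝ) (G : ℕ → ℝ) (q : ℕ) : ℕ := enc (cls ψ q) (aidx G (slice q))

/-- The loss: one plus the logarithmic distance of `-log ψ q` from the anchor of the slice of `q`. -/
noncomputable def aLoss (ψ : ℕ → ℝ) (G : ℕ → ℝ) (q : ℕ) : ℝ :=
  1 + |Real.log (max 1 (-Real.log (ψ q))) - Real.log (max 1 (G (slice q)))|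

/-- The summand of the anchored criterion. -/
noncomputable def wA (e : ℝ) (G : ℕ → ℝ) (ψ : ℕ → ℝ) (q : ℕ) : ℝ := mu ψ q / aLoss ψ G q ^ e

lemma one_le_aLoss (ψ G : ℕ → ℝ) (q : ℕ) : 1 ≤ aLoss ψ G q :=
  le_add_of_nonneg_right (abs_nonneg _)

lemma one_le_aLoss_rpow {e : ℝ} (he : 0 ≤ e) (ψ G : ℕ → ℝ) (q : ℕ) : 1 ≤ aLoss ψ G q ^ e :=
  Real.one_le_rpow (one_le_aLoss ψ G q) he

lemma wA_nonneg {e : ℝ} (he : 0 ≤ e) (G : ℕ → ℝ) {ψ : ℕ → ℝ} (hψ : ∀ q, 0 ≤ ψ q) (q : ℕ) :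
    0 ≤ wA e G ψ q :=
  div_nonneg (mu_nonneg_X hψ q) (le_trans zero_le_one (one_le_aLoss_rpow he ψ G q))

lemma wA_le_mu {e : ℝ} (he : 0 ≤ e) (G : ℕ → ℝ) {ψ : ℕ → ℝ} (hψ : ∀ q, 0 ≤ ψ q) (q : ℕ) :
    wA e G ψ q ≤ mu ψ q :=
  div_le_self (mu_nonneg_X hψ q) (one_le_aLoss_rpow he ψ G q)

lemma abs_floor_sub {x y : ℝ} (hx : 0 ≤ x) (hy : 0 ≤ y) :
    |(⌊x⌋₊ : ℝ) - ⌊y⌋₊| ≤ |x - y| + 1 := by
  have a1 := Nat.floor_le hx
  have a2 := Nat.lt_floor_add_one x
  have b1 := Nat.floor_le hy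
  have b2 := Nat.lt_floor_add_one y
  have c1 := le_abs_self (x - y)
  have c2 := neg_le_abs (x - y)
  rw [abs_le]
  constructor <;> linarith

/-- The position is at most a multiple of the loss. -/
lemma ppos_spec :
    ∃ C : ℝ, 1 ≤ C ∧ ∀ (ψ G : ℕ → ℝ) (q : ℕ), 1 ≤ -Real.log (ψ q) →
      (ppos ψ G q : ℝ) ≤ C * aLoss ψ G q := by
  have hlb : 0 < Real.log (1 + zeta0) := Real.log_pos (by unfold zeta0; norm_num)
  refine ⟨2 / Real.log (1 + zeta0) + 4, by
    have : 0 ≤ 2 / Real.log (1 + zeta0) := by positivity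
    linarith, fun ψ G q hL => ?_⟩
  unfold ppos aLoss
  rw [max_eq_right hL]
  set lb := Real.log (1 + zeta0)
  set x := Real.log (-Real.log (ψ q)) with hx
  set y := Real.log (max 1 (G (slice q))) with hy
  have hx0 : 0 ≤ x := Real.log_nonneg hL
  have hy0 : 0 ≤ y := Real.log_nonneg (le_max_left _ _)
  refine (enc_le _ _).trans ?_
  have h := abs_floor_sub (div_nonneg hx0 hlb.le) (div_nonneg hy0 hlb.le)
  rw [← sub_div, abs_div, abs_of_pos hlb] at h
  have hd : 0 ≤ |x - y| := abs_nonneg _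
  have h2 : 0 ≤ 2 / lb := by positivity
  calc 2 * |(cls ψ q : ℝ) - aidx G (slice q)| + 2 ≤ 2 * (|x - y| / lb + 1) + 2 := by
        unfold MainAux.cls aidx
        linarith [h]
    _ ≤ _ := by
        rw [show 2 * (|x - y| / lb + 1) = 2 / lb * |x - y| + 2 by ring]
        nlinarith

/-- Only large `q` with `q^{-2} ≤ ψ q` matter. -/
lemma not_summable_good {w : ℕ → ℝ} (ψ : ℕ → ℝ) (hψ : ∀ q, 0 ≤ ψ q) (hw0 : ∀ q, 0 ≤ w q)
    (hwμ : ∀ q, w q ≤ mu ψ q) (h : ¬ Summable w) (q1 : ℕ) :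
    ¬ Summable ((MainAux.Good ψ q1).indicator w) := by
  intro hs
  apply h
  have hmaj : Summable (fun q : ℕ => (MainAux.Good ψ q1).indicator w q + ((q : ℝ) ^ 2)⁻¹
      + (↑(range q1) : Set ℕ).indicator w q) :=
    (hs.add (Real.summable_nat_pow_inv.2 one_lt_two)).add
      (summable_of_ne_finset_zero (s := range q1) fun q hq =>
        Set.indicator_of_notMem (by simpa using hq) _)
  refine hmaj.of_nonneg_of_le hw0 fun q => ?_
  have h1 : 0 ≤ (MainAux.Good ψ q1).indicator w q := Set.indicator_nonneg (fun q _ => hw0 q) q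
  have h2 : 0 ≤ (↑(range q1) : Set ℕ).indicator w q := Set.indicator_nonneg (fun q _ => hw0 q) q
  have h3 : (0 : ℝ) ≤ ((q : ℝ) ^ 2)⁻¹ := by positivity
  by_cases hq : q ∈ MainAux.Good ψ q1
  · rw [Set.indicator_of_mem hq]; linarith
  by_cases hq1 : q1 ≤ q
  · have hsm : ψ q < ((q : ℝ) ^ 2)⁻¹ := not_le.1 fun hn => hq ⟨hq1, hn⟩
    have hle : mu ψ q ≤ ψ q := mul_le_of_le_one_left (hψ q) (th_le_one q)
    linarith [hwμ q]
  · rw [Set.indicator_of_mem (show q ∈ (↑(range q1) : Set ℕ) by simpa using hq1)]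
    linarith

/-- A dyadic group of positions meets at most `2 ^ (k+1)` classes. -/
lemma group_card (ψ G : ℕ → ℝ) (S : Finset ℕ) (l k : ℕ)
    (h : ∀ q ∈ S, slice q = l ∧ Nat.log 2 (ppos ψ G q) = k) :
    (S.image (cls ψ)).card ≤ 2 ^ (k + 1) := by
  refine le_trans (Finset.card_le_card_of_injOn (fun m => enc m (aidx G l)) ?_ ?_)
    (Finset.card_range _).le
  · intro m hm
    obtain ⟨q, hq, rfl⟩ := Finset.mem_image.1 hm
    obtain ⟨rfl, rfl⟩ := h q hq
    exact Finset.mem_range.2 (Nat.lt_pow_succ_log_self one_lt_two _)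
  · intro a _ b _ hab
    exact enc_inj hab

/-- Capping `ψ` at `exp (-T)` costs a bounded factor in the loss. -/
lemma aLoss_cap {T : ℝ} (hT : 1 ≤ T) (ψ ψ' G : ℕ → ℝ) (q : ℕ) (h : Real.exp (-T) ≤ ψ q)
    (h' : ψ' q = Real.exp (-T)) : aLoss ψ' G q ≤ (1 + Real.log T) * aLoss ψ G q := by
  have hl := Real.log_le_log (Real.exp_pos _) h
  rw [Real.log_exp] at hl
  unfold aLoss
  rw [h', Real.log_exp, neg_neg, max_eq_right hT]
  set a := Real.log (max 1 (-Real.log (ψ q))) with ha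
  set y := Real.log (max 1 (G (slice q)))
  have ha0 : 0 ≤ a := Real.log_nonneg (le_max_left _ _)
  have ha1 : a ≤ Real.log T :=
    Real.log_le_log (lt_of_lt_of_le one_pos (le_max_left _ _)) (max_le hT (by linarith))
  have h1 : |Real.log T - y| ≤ |a - y| + Real.log T := by
    rw [abs_le]
    constructor <;> linarith [le_abs_self (a - y), neg_le_abs (a - y)]
  have hd : 0 ≤ |a - y| := abs_nonneg _
  nlinarith

end Vale.Agent.P028A
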