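import Vale.Agent.P028A.Pos

/-! P028A: the anchored criterion with an arbitrarily small power, for non-Liouville shifts. Adapted
from P028X/Main: only the grouping of the classes of a slice is changed. -/

namespace Vale.Agent.P028A

open Finset MeasureTheory Filter Topology
open Vale.Agent.P028
open Vale.Agent.P028.MainAux (cls scale cls_spec exists_block pairs_bound exists_residue)
open Vale.Agent.P028X (Dioph Small aX omegaX group_bound e2 sW sW_mem slice slice_far select
  weight_absorb mu_nonneg_X one_le_log_three)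

/-- The binary order of the position. -/
noncomputable def grp (ψ A : ℕ → ℝ) (q : ℕ) : ℕ := Nat.log 2 (ppos ψ A q)

/-- The criterion for `ψ ≤ 1/e`. -/
lemma extra_core (γ μ c δ : ℝ) (hγ : Dioph γ μ c) (hδ : 0 < δ) (A : ℕ → ℝ) (ψ : ℕ → ℝ) (hψ : ∀ q, 0 ≤ ψ q)
    (hb : ∀ q, ψ q ≤ Real.exp (-1)) (hdiv : ¬ Summable (wA δ A ψ)) :
    ∀ᵐ x : ℝ, {q : ℕ | 0 < q ∧ distInt ((q : ℝ) * x - γ) < ψ q}.Infinite := by
  classical
  have hδ' : 0 ≤ δ := hδ.le
  set ε := min (1 / 100000) (δ / 2000) with hεdef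
  have hε : Small ε := ⟨lt_min (by norm_num) (by linarith), min_le_left _ _⟩
  have hεδ : ε ≤ δ / 2000 := min_le_right _ _
  obtain ⟨C1, hC10, hgroup⟩ := group_bound γ μ c ε hγ hε
  obtain ⟨C2, q0, hcross⟩ := cross_bound
  obtain ⟨C3, hfirst⟩ := integral_fq_interval
  obtain ⟨C4, hdivb⟩ := card_divisors_le (1 / 4) (by norm_num)
  obtain ⟨C0, hC0, hppos⟩ := ppos_spec
  have hhalf : ∀ q, ψ q ≤ 1 / 2 := fun q => (hb q).trans (by
    rw [Real.exp_neg, one_div]
    exact inv_anti₀ two_pos (by linarith [Real.add_one_le_exp (1 : ℝ)]))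
  obtain ⟨i, hi⟩ := exists_residue (wA δ A ψ) _
    (not_summable_good ψ hψ (wA_nonneg hδ' A hψ) (wA_le_mu hδ' A hψ) hdiv (max 3 q0)) slice 3 (by norm_num)
  set P : Set ℕ := {q | q ∈ MainAux.Good ψ (max 3 q0) ∧ slice q % 3 = i} with hP
  have hgood : ∀ q ∈ P, 3 ≤ q ∧ q0 ≤ q ∧ 0 < ψ q ∧ 1 ≤ Real.log q ∧ 1 ≤ -Real.log (ψ q) ∧
      -Real.log (ψ q) ≤ 2 * Real.log q := by
    rintro q ⟨⟨hqq, hq2⟩, -⟩
    have h3 : 3 ≤ q := (le_max_left _ _).trans hqq
    have hqR : (3 : ℝ) ≤ q := by exact_mod_cast h3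
    have hpos : 0 < ψ q := lt_of_lt_of_le (by positivity) hq2
    have hlq : 1 ≤ Real.log q :=
      one_le_log_three.trans (Real.log_le_log (by norm_num) hqR)
    have hL : 1 ≤ -Real.log (ψ q) := by
      have := Real.log_le_log hpos (hb q)
      rw [Real.log_exp] at this
      linarith
    have hl2 := Real.log_le_log (by positivity) hq2
    rw [Real.log_inv, Real.log_pow] at hl2
    push_cast at hl2
    exact ⟨h3, (le_max_right _ _).trans hqq, hpos, hlq, hL, by linarith⟩
  set v : ℕ → ℝ := fun q => sW ε (grp ψ A q) * mu ψ q with hv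
  set f : ℕ → ℝ → ℝ := fun q x => sW ε (grp ψ A q) * fq γ ψ 1 0 q x with hf
  have hv0 : ∀ q, 0 ≤ v q := fun q => mul_nonneg (sW_mem hε _).1.le (mu_nonneg_X hψ q)
  have hfn : ∀ q x, 0 ≤ f q x := fun q x =>
    mul_nonneg (sW_mem hε _).1.le (fq_nonneg γ ψ _ _ q x)
  have hcop : IsCoprime (1 : ℤ) ((0 : ℕ) : ℤ) := isCoprime_one_left
  -- the summand against the weights
  set κ : ℝ := δ - e2 ε with hκ
  have hκ0 : 0 < κ := by
    have h1 : e2 ε ≤ 850 * ε := by
      rw [e2, div_le_iff₀ (by linarith [hε.2])]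
      nlinarith [hε.1, hε.2]
    rw [hκ]
    linarith
  set d : ℕ → ℝ := fun k => ((2 : ℝ) ^ k) ^ (-κ) with hd
  have hd0 : ∀ k, 0 ≤ d k := fun k => Real.rpow_nonneg (by positivity) _
  set G := ∑' k : ℕ, ((2 : ℝ) ^ (-κ)) ^ k with hGdef
  have hG : ∀ K : Finset ℕ, ∑ k ∈ K, d k ≤ G := by
    intro K
    have hr0 : (0 : ℝ) ≤ (2 : ℝ) ^ (-κ) := by positivity
    have hr1 : (2 : ℝ) ^ (-κ) < 1 := Real.rpow_lt_one_of_one_lt_of_neg one_lt_two (by linarith)
    have e : ∀ k, d k = ((2 : ℝ) ^ (-κ)) ^ k := fun k => by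
      simp only [hd]
      rw [← Real.rpow_natCast, ← Real.rpow_natCast, ← Real.rpow_mul (by norm_num),
        ← Real.rpow_mul (by norm_num), mul_comm]
    simp only [e]
    exact (summable_geometric_of_lt_one hr0 hr1).sum_le_tsum K fun k _ => pow_nonneg hr0 k
  have hG0 : 0 < G := lt_of_lt_of_le (Real.rpow_pos_of_pos (by positivity) _)
    ((Finset.single_le_sum (fun k _ => hd0 k) (Finset.mem_singleton_self 0)).trans (hG {0}))
  set D := C0 ^ δ with hD
  have hD0 : 0 < D := by positivity
  have hwv : ∀ q ∈ P, wA δ A ψ q ≤ D * (v q * d (grp ψ A q)) := by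
    intro q hq
    obtain ⟨-, -, -, -, hL, -⟩ := hgood q hq
    have hR : (2 : ℝ) ^ grp ψ A q ≤ C0 * aLoss ψ A q :=
      le_trans (by exact_mod_cast Nat.pow_log_le_self 2 (enc_pos _ _).ne') (hppos ψ A q hL)
    set X := (2 : ℝ) ^ grp ψ A q with hX
    have hX0 : 0 < X := by positivity
    set R := aLoss ψ A q with hRdef
    have hR0 : 0 < R := lt_of_lt_of_le one_pos (one_le_aLoss ψ A q)
    have h1 : X ^ δ ≤ D * R ^ δ := by
      rw [hD, ← Real.mul_rpow (by linarith) hR0.le]
      exact Real.rpow_le_rpow hX0.le hR hδ'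
    have h2 : sW ε (grp ψ A q) * d (grp ψ A q) = (X ^ δ)⁻¹ := by
      simp only [sW, hd, ← hX]
      rw [← Real.rpow_neg hX0.le, ← Real.rpow_add hX0, hκ]
      ring_nf
    have h3 : D * (v q * d (grp ψ A q)) = mu ψ q * (D / X ^ δ) := by
      rw [div_eq_mul_inv, ← h2, hv]; ring
    rw [h3, wA, ← hRdef, div_eq_mul_inv]
    refine mul_le_mul_of_nonneg_left ?_ (mu_nonneg_X hψ q)
    rw [le_div_iff₀ (by positivity), inv_mul_le_iff₀ (by positivity), mul_comm _ D]
    exact h1
  -- the blocks
  choose T hT hTsum using exists_block (wA δ A ψ) P (wA_nonneg hδ' A hψ) hi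
  choose T' hT'sub hT'one hT'sum using
    fun k => select (T k) slice (grp ψ A) v d G hv0 hd0 hG
  set M : ℕ → ℝ := fun k => ∑ q ∈ T' k, v q with hMdef
  set η0 := 1 / (D * G) with hη0
  have hη00 : 0 < η0 := by positivity
  have hM : ∀ k : ℕ, η0 * ((k : ℝ) + 1) ≤ M k := by
    intro k
    rw [hη0, one_div_mul_eq_div, div_le_iff₀ (by positivity)]
    calc (k : ℝ) + 1 ≤ ∑ q ∈ T k, wA δ A ψ q := hTsum k
      _ ≤ ∑ q ∈ T k, D * (v q * d (grp ψ A q)) :=
          Finset.sum_le_sum fun q hq => hwv q (hT k q hq).1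
      _ = D * ∑ q ∈ T k, v q * d (grp ψ A q) := (Finset.mul_sum ..).symm
      _ ≤ D * (G * M k) := mul_le_mul_of_nonneg_left (hT'sum k) hD0.le
      _ = _ := by ring
  have hMη : ∀ k, η0 ≤ M k := fun k =>
    (le_mul_of_one_le_right hη00.le (by linarith [Nat.cast_nonneg (α := ℝ) k])).trans (hM k)
  have hT'P : ∀ k, ∀ q ∈ T' k, q ∈ P ∧ k ≤ q := fun k q hq => hT k q (hT'sub k hq)
  -- quasi-independence across slices
  have hX : ∀ q ∈ P, ∀ r ∈ P, slice q ≠ slice r →
      ∫ x in Set.Ico (0 : ℝ) 1, f q x * f r x ≤ max C2 0 * v q * v r := by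
    have main : ∀ q ∈ P, ∀ r ∈ P, slice q < slice r →
        ∫ x in Set.Ico (0 : ℝ) 1, f q x * f r x ≤ max C2 0 * v q * v r := by
      intro q hq r hr hlt
      obtain ⟨h3, hq0, -, hlq, -⟩ := hgood q hq
      obtain ⟨h3', -, -, hlr, -⟩ := hgood r hr
      have h8 : q ^ 8 ≤ r := slice_far (by omega) (by omega) hlq hlr (by
        have h1 := hq.2
        have h2 := hr.2
        omega)
      have h := hcross γ ψ 1 1 0 0 q r hcop hcop hq0 (by omega) h8 hq.1.2 (hhalf q) (hψ r)
        (hhalf r)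
      have e : ∀ x, f q x * f r x
          = sW ε (grp ψ A q) * sW ε (grp ψ A r) * (fq γ ψ 1 0 q x * fq γ ψ 1 0 r x) := fun x => by
        simp only [hf]; ring
      simp only [e]
      rw [integral_const_mul]
      refine (mul_le_mul_of_nonneg_left (h.trans (mul_le_mul_of_nonneg_right
        (mul_le_mul_of_nonneg_right (le_max_left C2 0) (mu_nonneg_X hψ q))
        (mu_nonneg_X hψ r))) (mul_nonneg (sW_mem hε _).1.le (sW_mem hε _).1.le)).trans_eq ?_
      simp only [hv]; ring
    intro q hq r hr hne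
    rcases lt_or_gt_of_ne hne with h | h
    · exact main q hq r hr h
    · simp only [mul_comm (f q _) (f r _)]
      refine (main r hr q hq h).trans_eq ?_
      ring
  have hint2 : ∀ q r, IntegrableOn (fun x => f q x * f r x) (Set.Ico 0 1) := fun q r => by
    have e : (fun x => f q x * f r x)
        = fun x => sW ε (grp ψ A q) * sW ε (grp ψ A r) * (fq γ ψ 1 0 q x * fq γ ψ 1 0 r x) :=
      funext fun x => by simp only [hf]; ring
    rw [e]
    exact (integrableOn_fq_mul γ ψ 1 0 q r).const_mul _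
  have hexp : ∀ U : Finset ℕ, ∫ x in Set.Ico (0 : ℝ) 1, (∑ q ∈ U, f q x) ^ 2
      = ∑ q ∈ U, ∑ r ∈ U, ∫ x in Set.Ico (0 : ℝ) 1, f q x * f r x := fun U => by
    simp only [sq, Finset.sum_mul_sum]
    rw [integral_finsetSum _ fun q _ => integrable_finsetSum _ fun r _ => hint2 q r]
    exact Finset.sum_congr rfl fun q _ => integral_finsetSum _ fun r _ => hint2 q r
  set Tot := 3 * C1 * (1 + 1 / η0) + max C2 0 with hTot
  have hsq : ∀ k, ∫ x in Set.Ico (0 : ℝ) 1, (∑ q ∈ T' k, f q x) ^ 2 ≤ Tot * M k ^ 2 := by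
    intro k
    rw [hexp]
    refine (pairs_bound (T' k) slice v _ (3 * C1) (max C2 0) hv0 (by positivity)
      (le_max_right _ _) ?_
      fun q hq r hr hne => hX q (hT'P k q hq).1 r (hT'P k r hr).1 hne).trans ?_
    · intro j hj
      obtain ⟨q', hq', rfl⟩ := mem_image.1 hj
      set S := (T' k).filter (fun x => P028X.slice x = slice q') with hS
      set g := grp ψ A q' with hg
      have hSm : ∀ q ∈ S, q ∈ P ∧ slice q = slice q' ∧ grp ψ A q = g := fun q hq => by
        obtain ⟨h1, h2⟩ := mem_filter.1 hq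
        exact ⟨(hT'P k q h1).1, h2, hT'one k q h1 q' hq' h2⟩
      have hcard : (S.image (cls ψ)).card ≤ 2 ^ (g + 1) :=
        group_card ψ A S (slice q') g fun q hq => by
          obtain ⟨-, h2, h3⟩ := hSm q hq
          exact ⟨h2, h3⟩
      have h := hgroup ψ S (cls ψ) (2 ^ (g + 1)) hψ (fun q hq => by
          obtain ⟨h3, -, hp, -⟩ := hgood q (hSm q hq).1
          exact ⟨by omega, hp, hb q⟩)
        (fun q hq => cls_spec ψ q (hgood q (hSm q hq).1).2.2.2.2.1) hcard
      have e : ∀ x, ∑ q ∈ S, f q x = sW ε g * ∑ q ∈ S, fq γ ψ 1 0 q x := fun x => by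
        rw [Finset.mul_sum]
        exact Finset.sum_congr rfl fun q hq => by simp only [hf]; rw [(hSm q hq).2.2]
      have ev : ∑ q ∈ S, v q = sW ε g * msum (mu ψ) S := by
        rw [msum, Finset.mul_sum]
        exact Finset.sum_congr rfl fun q hq => by simp only [hv]; rw [(hSm q hq).2.2]
      rw [← hexp, ev]
      simp only [e, mul_pow]
      rw [integral_const_mul]
      refine (mul_le_mul_of_nonneg_left h (sq_nonneg _)).trans ?_
      obtain ⟨hs0, hs1⟩ := sW_mem hε g
      set m := msum (mu ψ) S with hm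
      have hm0 : 0 ≤ m := Finset.sum_nonneg fun q _ => mu_nonneg_X hψ q
      have hw := mul_le_mul_of_nonneg_left (weight_absorb hε g m hm0) hC10
      have hsm : sW ε g ^ 2 * m ≤ sW ε g * m := by
        rw [sq]
        exact mul_le_mul_of_nonneg_right (mul_le_of_le_one_right hs0.le hs1) hm0
      have hsm' := mul_le_mul_of_nonneg_left hsm hC10
      rw [mul_pow] at hw
      nlinarith [mul_nonneg hC10 (mul_nonneg hs0.le hm0)]
    · have h1 : M k ≤ 1 / η0 * M k ^ 2 := by
        rw [one_div_mul_eq_div, le_div_iff₀ hη00, sq]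
        exact mul_le_mul_of_nonneg_left (hMη k) (hη00.le.trans (hMη k))
      have h2 := mul_le_mul_of_nonneg_left h1 (show 0 ≤ 3 * C1 by positivity)
      rw [hTot]
      simp only [hMdef] at h2 ⊢
      linarith
  set F : ℕ → ℝ → ℝ := fun k x => (∑ q ∈ T' k, f q x) / (2 * M k) with hF
  have hMpos : ∀ k, 0 < M k := fun k => hη00.trans_le (hMη k)
  have hfm : ∀ q, Measurable (f q) := fun q => (fq_measurable γ ψ 1 0 q).const_mul _
  have hf1 : ∀ q x, f q x ≤ 1 := fun q x =>
    mul_le_one₀ (sW_mem hε _).2 (fq_nonneg γ ψ 1 0 q x) (fq_le_one γ ψ 1 0 q x)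
  refine full_measure_of_blocks γ ψ F (Tot / 4)
    (fun k => (Finset.measurable_sum _ fun q _ => hfm q).div_const _)
    (fun k x => div_nonneg (sum_nonneg fun q _ => hfn q x) (by linarith [hMpos k]))
    (fun k => ⟨((T' k).card : ℝ) / (2 * M k), fun x => ?_⟩) ?_ ?_ ?_
  · refine div_le_div_of_nonneg_right ?_ (by linarith [hMpos k])
    calc ∑ q ∈ T' k, f q x ≤ ∑ q ∈ T' k, (1 : ℝ) := sum_le_sum fun q _ => hf1 q x
      _ = ((T' k).card : ℝ) := by simp
  · intro k x hne
    obtain ⟨q, hq, hq'⟩ := exists_ne_zero_of_sum_ne_zero (left_ne_zero_of_mul hne)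
    obtain ⟨hqP, hkq⟩ := hT'P k q hq
    exact ⟨q, hkq, by have := (hgood q hqP).1; omega,
      fq_ne_zero γ ψ _ _ q x (right_ne_zero_of_mul hq')⟩
  · intro k
    have hpos := hMpos k
    simp only [hF, div_pow]
    rw [integral_div, div_le_iff₀ (by positivity)]
    exact (hsq k).trans_eq (by ring)
  · intro a b ha hab hb1
    rw [← tendsto_sub_nhds_zero_iff]
    set C5 := max C3 0 * max C4 0 ^ 2 * 2 with hC5
    refine squeeze_zero_norm (a := fun k : ℕ => C5 / ((k : ℝ) + 1) ^ (1 / 2 : ℝ)) (fun k => ?_) ?_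
    · have hpos := hMpos k
      have hfi : ∀ q ∈ T' k, IntegrableOn (f q) (Set.Ioc a b) := fun q _ =>
        IntegrableOn.of_bound (by simp [Real.volume_Ioc]) (hfm q).aestronglyMeasurable
          1 (Eventually.of_forall fun x => by
            rw [Real.norm_of_nonneg (hfn q x)]; exact hf1 q x)
      have e : (∫ x in Set.Ioc a b, F k x) - (b - a)
          = (∑ q ∈ T' k, ((∫ x in Set.Ioc a b, f q x) - (b - a) * (2 * v q))) / (2 * M k) := by
        simp only [hF]
        rw [integral_div, integral_finsetSum _ hfi, sum_sub_distrib, ← mul_sum, ← mul_sum]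
        simp only [hMdef] at hpos ⊢
        field_simp
      rw [Real.norm_eq_abs, e, abs_div, abs_of_pos (by linarith : (0 : ℝ) < 2 * M k),
        div_le_iff₀ (by linarith)]
      refine (abs_sum_le_sum_abs _ _).trans ?_
      calc ∑ q ∈ T' k, |(∫ x in Set.Ioc a b, f q x) - (b - a) * (2 * v q)|
          ≤ ∑ q ∈ T' k, 2 * (C5 / ((k : ℝ) + 1) ^ (1 / 2 : ℝ)) * v q := by
            refine sum_le_sum fun q hq => ?_
            obtain ⟨hqP, hkq⟩ := hT'P k q hq
            obtain ⟨h3, -⟩ := hgood q hqP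
            have hqR : (0 : ℝ) < q := by exact_mod_cast (by omega : 0 < q)
            have hI := hfirst γ ψ 1 0 q a b hcop (by omega) (hψ q) (hhalf q) ha hab hb1
            have e1 : (∫ x in Set.Ioc a b, f q x) - (b - a) * (2 * v q) = sW ε (grp ψ A q)
                * ((∫ x in Set.Ioc a b, fq γ ψ 1 0 q x) - (b - a) * (2 * mu ψ q)) := by
              simp only [hf, hv]
              rw [integral_const_mul]
              ring
            rw [e1, abs_mul, abs_of_pos (sW_mem hε _).1]
            refine (mul_le_mul_of_nonneg_left hI (sW_mem hε _).1.le).trans ?_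
            have hτ : (q.divisors.card : ℝ) ≤ max C4 0 * (q : ℝ) ^ (1 / 4 : ℝ) :=
              (hdivb q (by omega)).trans
                (mul_le_mul_of_nonneg_right (le_max_left _ _) (by positivity))
            have hμ : ψ q ≤ (q.divisors.card : ℝ) * mu ψ q := by
              have hth : 1 ≤ (q.divisors.card : ℝ) * th q := by
                refine le_trans ?_ (mul_le_mul_of_nonneg_right
                  (Ph_le_card_divisors q (by omega)) (th_nonneg q))
                have hne : (q.totient : ℝ) ≠ 0 := by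
                  exact_mod_cast (Nat.totient_pos.2 (by omega : 0 < q)).ne'
                rw [Ph, th]
                field_simp
                rfl
              calc ψ q ≤ (q.divisors.card : ℝ) * th q * ψ q :=
                    le_mul_of_one_le_left (hψ q) hth
                _ = _ := by rw [mu]; ring
            have hμ0 := mu_nonneg_X hψ q
            have hs0 := (sW_mem hε (grp ψ A q)).1.le
            have hk : ((k : ℝ) + 1) ^ (1 / 2 : ℝ) ≤ 2 * (q : ℝ) ^ (1 / 2 : ℝ) := by
              calc ((k : ℝ) + 1) ^ (1 / 2 : ℝ) ≤ ((4 : ℝ) * q) ^ (1 / 2 : ℝ) := by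
                    refine Real.rpow_le_rpow (by positivity) ?_ (by norm_num)
                    have : (k : ℝ) ≤ q := by exact_mod_cast hkq
                    have : (1 : ℝ) ≤ q := by exact_mod_cast (by omega : 1 ≤ q)
                    linarith
                _ = _ := by
                    rw [Real.mul_rpow (by norm_num) hqR.le, show (4 : ℝ) = 2 ^ (2 : ℝ) by norm_num,
                      ← Real.rpow_mul (by norm_num)]
                    norm_num
            calc sW ε (grp ψ A q) * (C3 * ψ q * (q.divisors.card : ℝ) / q)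
                ≤ sW ε (grp ψ A q) * (max C3 0
                    * ((max C4 0 * (q : ℝ) ^ (1 / 4 : ℝ)) * mu ψ q)
                    * (max C4 0 * (q : ℝ) ^ (1 / 4 : ℝ)) / q) := by
                  refine mul_le_mul_of_nonneg_left (div_le_div_of_nonneg_right ?_ hqR.le) hs0
                  exact mul_le_mul (mul_le_mul (le_max_left _ _)
                    (hμ.trans (mul_le_mul_of_nonneg_right hτ hμ0)) (hψ q) (le_max_right _ _))
                    hτ (Nat.cast_nonneg _) (by positivity)
              _ = max C3 0 * max C4 0 ^ 2 * v q / (q : ℝ) ^ (1 / 2 : ℝ) := by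
                  have e2 : (q : ℝ) ^ (1 / 4 : ℝ) * (q : ℝ) ^ (1 / 4 : ℝ)
                      = (q : ℝ) ^ (1 / 2 : ℝ) := by
                    rw [← Real.rpow_add hqR]; norm_num
                  have e3 : (q : ℝ) ^ (1 / 2 : ℝ) * (q : ℝ) ^ (1 / 2 : ℝ) = q := by
                    rw [← Real.rpow_add hqR]; norm_num
                  simp only [hv]
                  rw [eq_div_iff (by positivity), mul_div_assoc', div_mul_eq_mul_div,
                    div_eq_iff hqR.ne']
                  linear_combination (sW ε (grp ψ A q) * max C3 0 * max C4 0 ^ 2 * mu ψ q) *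
                    ((q : ℝ) ^ (1 / 2 : ℝ) * e2 + e3)
              _ ≤ 2 * (C5 / ((k : ℝ) + 1) ^ (1 / 2 : ℝ)) * v q := by
                  rw [hC5, div_le_iff₀ (by positivity), mul_comm (2 : ℝ), div_mul_eq_mul_div,
                    div_mul_eq_mul_div, div_mul_eq_mul_div, le_div_iff₀ (by positivity)]
                  have := mul_le_mul_of_nonneg_left hk (show 0 ≤ max C3 0 * max C4 0 ^ 2 * v q by
                    have := hv0 q; positivity)
                  have h0 : 0 ≤ max C3 0 * max C4 0 ^ 2 * v q * (q : ℝ) ^ (1 / 2 : ℝ) := by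
                    have := hv0 q; positivity
                  linarith
        _ = _ := by rw [← mul_sum]; simp only [hMdef]; ring
    · exact tendsto_const_nhds.div_atTop ((tendsto_rpow_atTop (by norm_num)).comp
        (tendsto_natCast_atTop_atTop.atTop_add tendsto_const_nhds))

/-- Q1 with the extra divergence, for every irrational non-Liouville shift and every `ψ`. -/
theorem weak_inhom_DS_anchor_dioph (γ μ c δ : ℝ) (hγ : Dioph γ μ c) (hδ : 0 < δ) (A : ℕ → ℝ) (ψ : ℕ → ℝ) (hψ : ∀ q, 0 ≤ ψ q)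
    (hdiv : ¬ Summable (wA δ A ψ)) :
    ∀ᵐ x : ℝ, {q : ℕ | 0 < q ∧ distInt ((q : ℝ) * x - γ) < ψ q}.Infinite := by
  classical
  have hδ' : 0 ≤ δ := hδ.le
  by_cases hbig : {q : ℕ | 1 / 2 < ψ q}.Infinite
  · refine Eventually.of_forall fun x => ((hbig.sdiff (Set.finite_singleton 0))).mono ?_
    rintro q ⟨hq, hq0⟩
    exact ⟨Nat.pos_of_ne_zero (by simpa using hq0), lt_of_le_of_lt (abs_sub_round _) hq⟩
  set ψ' : ℕ → ℝ := fun q => if ψ q ≤ 1 / 2 then min (ψ q) (Real.exp (-1)) else 0 with hψ'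
  have h0 : ∀ q, 0 ≤ ψ' q := fun q => by
    simp only [hψ']; split_ifs
    · exact le_min (hψ q) (Real.exp_pos _).le
    · exact le_rfl
  have hle : ∀ q, ψ' q ≤ ψ q := fun q => by
    simp only [hψ']; split_ifs
    · exact min_le_left _ _
    · exact hψ q
  have hb : ∀ q, ψ' q ≤ Real.exp (-1) := fun q => by
    simp only [hψ']; split_ifs
    · exact min_le_right _ _
    · exact (Real.exp_pos _).le
  have hd : ¬ Summable (wA δ A ψ') := by
    intro hs
    apply hdiv
    obtain hfin : {q : ℕ | 1 / 2 < ψ q}.Finite := Set.not_infinite.1 hbig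
    refine (((hs.mul_left 2)).add (summable_of_ne_finset_zero (s := hfin.toFinset)
      (f := fun q => ({q : ℕ | 1 / 2 < ψ q}).indicator (wA δ A ψ) q) fun q hq =>
        Set.indicator_of_notMem (fun h => hq (hfin.mem_toFinset.2 h)) _)).of_nonneg_of_le
      (wA_nonneg hδ' A hψ) fun q => ?_
    by_cases hq : ψ q ≤ 1 / 2
    swap
    · rw [Set.indicator_of_mem (show q ∈ {q : ℕ | 1 / 2 < ψ q} from not_le.1 hq)]
      linarith [wA_nonneg hδ' A h0 q]
    rw [Set.indicator_of_notMem (show q ∉ {q : ℕ | 1 / 2 < ψ q} from not_lt.2 hq), add_zero]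
    have he : ψ' q = min (ψ q) (Real.exp (-1)) := if_pos hq
    rcases le_or_gt (ψ q) (Real.exp (-1)) with h | h
    · have hh : ψ' q = ψ q := by rw [he, min_eq_left h]
      have : wA δ A ψ' q = wA δ A ψ q := by simp only [wA, aLoss, mu, hh]
      rw [this]
      linarith [wA_nonneg hδ' A hψ q]
    · have hh : ψ' q = Real.exp (-1) := by rw [he, min_eq_right h.le]
      have h1 := one_le_aLoss ψ' A q
      have hlog : aLoss ψ' A q ≤ aLoss ψ A q := by
        simpa using aLoss_cap le_rfl ψ ψ' A q h.le hh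
      have hmu : mu ψ q ≤ 2 * mu ψ' q := by
        simp only [mu, hh]
        rw [mul_left_comm]
        refine mul_le_mul_of_nonneg_left (hq.trans ?_) (th_nonneg q)
        rw [Real.exp_neg]
        have h3 : (1 / 4 : ℝ) ≤ (Real.exp 1)⁻¹ := by
          rw [one_div]
          exact inv_anti₀ (Real.exp_pos _) (by linarith [Real.exp_one_lt_d9])
        linarith
      simp only [wA]
      rw [← mul_div_assoc]
      exact div_le_div₀ (mul_nonneg zero_le_two (mu_nonneg_X h0 q)) hmu
        (Real.rpow_pos_of_pos (by linarith) _) (Real.rpow_le_rpow (by linarith) hlog hδ')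
  filter_upwards [extra_core γ μ c δ hγ hδ A ψ' h0 hb hd] with x hx
  exact hx.mono fun q hq => ⟨hq.1, hq.2.trans_le (hle q)⟩

end Vale.Agent.P028A
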