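import Vale.Agent.P028A.AnyShift
import Vale.Agent.P028A.Dioph

/-! P028A: the earlier criteria and the band criterion as special anchors. -/

namespace Vale.Agent.P028A

open Finset Vale.Agent.P028
open Vale.Agent.P028X (slice slice_spec mu_nonneg_X wD lossD one_le_lossD wD_le_mu wD_nonneg lossD_arg
  one_le_log_three)

/-- Comparison up to a constant, the finitely many small `q` and the values below `q ^ (-2)`. -/
lemma not_summable_of_le {w v : ℕ → ℝ} (ψ : ℕ → ℝ) (hψ : ∀ q, 0 ≤ ψ q) (hw0 : ∀ q, 0 ≤ w q)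
    (hv0 : ∀ q, 0 ≤ v q) (hwμ : ∀ q, w q ≤ mu ψ q) (q1 : ℕ) (K : ℝ)
    (h : ∀ q, q1 ≤ q → ((q : ℝ) ^ 2)⁻¹ ≤ ψ q → w q ≤ K * v q) (hdiv : ¬ Summable w) :
    ¬ Summable v := by
  intro hs
  refine not_summable_good ψ hψ hw0 hwμ hdiv q1 ?_
  refine (hs.mul_left (max K 0)).of_nonneg_of_le
    (fun q => Set.indicator_nonneg (fun q _ => hw0 q) q) fun q => ?_
  by_cases hq : q ∈ MainAux.Good ψ q1
  · rw [Set.indicator_of_mem hq]
    exact (h q hq.1 hq.2).trans (mul_le_mul_of_nonneg_right (le_max_left _ _) (hv0 q))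
  · rw [Set.indicator_of_notMem hq]
    exact mul_nonneg (le_max_right _ _) (hv0 q)

lemma one_le_log {q : ℕ} (hq : 3 ≤ q) : 1 ≤ Real.log q :=
  one_le_log_three.trans (Real.log_le_log (by norm_num) (by exact_mod_cast hq))

lemma good_bound {ψ : ℕ → ℝ} {q : ℕ} (hq : 3 ≤ q) (h : ((q : ℝ) ^ 2)⁻¹ ≤ ψ q) :
    max 1 (-Real.log (ψ q)) ≤ 2 * Real.log q := by
  have hqR : (0 : ℝ) < q := by exact_mod_cast (by omega : 0 < q)
  have h1 := Real.log_le_log (by positivity) h
  rw [Real.log_inv, Real.log_pow] at h1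
  push_cast at h1
  exact max_le (by linarith [one_le_log hq]) (by linarith)

/-- The top of the slice as anchor gives back the loss `log (3 + log q / L)`. -/
lemma lossD_to_anchor {e : ℝ} (he : 0 ≤ e) (ψ : ℕ → ℝ) (hψ : ∀ q, 0 ≤ ψ q)
    (h : ¬ Summable (wD e ψ)) : ¬ Summable (wA e (fun k => 16 * (8 : ℝ) ^ k) ψ) := by
  refine not_summable_of_le ψ hψ (wD_nonneg he hψ) (wA_nonneg he _ hψ) (wD_le_mu he hψ) 3
    ((5 : ℝ) ^ e) (fun q hq hq2 => ?_) h
  obtain ⟨hlo, hhi⟩ := slice_spec q (one_le_log hq)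
  have hL2 := good_bound hq hq2
  set L := max 1 (-Real.log (ψ q)) with hL
  have hL0 : 0 < L := lt_of_lt_of_le one_pos (le_max_left _ _)
  set R := Real.log (3 + Real.log q / L) with hR
  have hR1 : 1 ≤ R := one_le_log_three.trans (Real.log_le_log (by norm_num) (lossD_arg q ψ))
  have h8 : (0 : ℝ) < (8 : ℝ) ^ slice q := by positivity
  have h16 : Real.log 16 ≤ 3 := by
    rw [show (16 : ℝ) = 2 ^ 4 by norm_num, Real.log_pow]
    have := Real.log_two_lt_d9
    push_cast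
    linarith
  have h3 : Real.log ((8 : ℝ) ^ slice q / L) ≤ R := Real.log_le_log (by positivity)
    (le_trans ((div_le_div_iff_of_pos_right hL0).2 hlo) (le_add_of_nonneg_left (by norm_num)))
  rw [Real.log_div h8.ne' hL0.ne'] at h3
  have hle : aLoss ψ (fun k => 16 * (8 : ℝ) ^ k) q ≤ 5 * R := by
    have hA : (1 : ℝ) ≤ 16 * 8 ^ slice q :=
      one_le_mul_of_one_le_of_one_le (by norm_num) (one_le_pow₀ (by norm_num))
    unfold aLoss
    rw [max_eq_right hA, ← hL, abs_of_nonpos (sub_nonpos.2 (Real.log_le_log hL0 (by linarith))),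
      Real.log_mul (by norm_num) h8.ne']
    linarith
  have ha := one_le_aLoss ψ (fun k => 16 * (8 : ℝ) ^ k) q
  rw [wD, wA, lossD, ← hL, ← hR, ← mul_div_assoc, div_le_div_iff₀ (Real.rpow_pos_of_pos (by linarith) _)
    (Real.rpow_pos_of_pos (by linarith) _)]
  calc mu ψ q * aLoss ψ (fun k => 16 * (8 : ℝ) ^ k) q ^ e ≤ mu ψ q * (5 * R) ^ e :=
        mul_le_mul_of_nonneg_left (Real.rpow_le_rpow (by linarith) hle he) (mu_nonneg_X hψ q)
    _ = _ := by rw [Real.mul_rpow (by norm_num) (by linarith)]; ring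

/-- Polynomially small values have bounded loss. -/
lemma poly_to_lossD {b : ℝ} (hb : 0 < b) {e : ℝ} (he : 0 ≤ e) (ψ : ℕ → ℝ) (hψ : ∀ q, 0 ≤ ψ q)
    (h : ¬ Summable ({q : ℕ | ψ q ≤ (q : ℝ) ^ (-b)}.indicator (mu ψ))) :
    ¬ Summable (wD e ψ) := by
  refine not_summable_of_le ψ hψ (fun q => Set.indicator_nonneg (fun q _ => mu_nonneg_X hψ q) q)
    (wD_nonneg he hψ) (fun q => Set.indicator_le_self' (fun q _ => mu_nonneg_X hψ q) q) 3
    (Real.log (3 + 1 / b) ^ e) (fun q hq hq2 => ?_) h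
  by_cases hm : ψ q ≤ (q : ℝ) ^ (-b)
  swap
  · rw [Set.indicator_of_notMem (show q ∉ {q : ℕ | ψ q ≤ (q : ℝ) ^ (-b)} from hm)]
    exact mul_nonneg (Real.rpow_nonneg (Real.log_nonneg (by
      linarith [one_div_pos.2 hb])) _) (wD_nonneg he hψ q)
  rw [Set.indicator_of_mem (show q ∈ {q : ℕ | ψ q ≤ (q : ℝ) ^ (-b)} from hm)]
  have hqR : (0 : ℝ) < q := by exact_mod_cast (by omega : 0 < q)
  have hp : 0 < ψ q := lt_of_lt_of_le (by positivity) hq2
  have h1 := Real.log_le_log hp hm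
  rw [Real.log_rpow hqR] at h1
  have hR : lossD e ψ q ≤ Real.log (3 + 1 / b) ^ e := by
    have hL0 : 0 < max 1 (-Real.log (ψ q)) := lt_of_lt_of_le one_pos (le_max_left _ _)
    refine Real.rpow_le_rpow (le_trans zero_le_one (one_le_log_three.trans
      (Real.log_le_log (by norm_num) (lossD_arg q ψ)))) (Real.log_le_log
      (by linarith [lossD_arg q ψ]) (add_le_add le_rfl ?_)) he
    rw [div_le_div_iff₀ hL0 hb, one_mul, mul_comm]
    exact le_trans (by linarith) (le_max_right _ _)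
  have hl := one_le_lossD he ψ q
  rw [wD, ← mul_div_assoc, le_div_iff₀ (by linarith), mul_comm _ (mu ψ q)]
  exact mul_le_mul_of_nonneg_left hR (mu_nonneg_X hψ q)

/-- Values between two powers of `log q` have bounded loss against the anchor `k + 1`. -/
lemma band_to_anchor {a A : ℝ} (ha : 0 < a) {e : ℝ} (he : 0 ≤ e) (ψ : ℕ → ℝ) (hψ : ∀ q, 0 ≤ ψ q)
    (h : ¬ Summable ({q : ℕ | Real.log q ^ (-A) ≤ ψ q ∧ ψ q ≤ Real.log q ^ (-a)}.indicator (mu ψ))) :
    ¬ Summable (wA e (fun k => (k : ℝ) + 1) ψ) := by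
  set K := 1 + |Real.log (a / 2)| + |Real.log (3 * (1 + |A|))| with hK
  refine not_summable_of_le ψ hψ (fun q => Set.indicator_nonneg (fun q _ => mu_nonneg_X hψ q) q)
    (wA_nonneg he _ hψ) (fun q => Set.indicator_le_self' (fun q _ => mu_nonneg_X hψ q) q) 16
    (K ^ e) (fun q hq hq2 => ?_) h
  by_cases hm : q ∈ {q : ℕ | Real.log q ^ (-A) ≤ ψ q ∧ ψ q ≤ Real.log q ^ (-a)}
  swap
  · rw [Set.indicator_of_notMem hm]
    exact mul_nonneg (Real.rpow_nonneg (by positivity) _) (wA_nonneg he _ hψ q)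
  rw [Set.indicator_of_mem hm]
  obtain ⟨hm1, hm2⟩ := hm
  have hq16 : Real.exp 1 ≤ Real.log q := by
    have h1 : Real.log 16 ≤ Real.log q := Real.log_le_log (by norm_num) (by exact_mod_cast hq)
    rw [show (16 : ℝ) = 2 ^ 4 by norm_num, Real.log_pow] at h1
    push_cast at h1
    linarith [Real.log_two_gt_d9, Real.exp_one_lt_d9]
  have hlq : 0 < Real.log q := lt_of_lt_of_le (Real.exp_pos _) hq16
  set ll := Real.log (Real.log q) with hll
  have hll1 : 1 ≤ ll := by rwa [hll, Real.le_log_iff_exp_le hlq]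
  have hp : 0 < ψ q := lt_of_lt_of_le (Real.rpow_pos_of_pos hlq _) hm1
  have l1 := Real.log_le_log (Real.rpow_pos_of_pos hlq _) hm1
  have l2 := Real.log_le_log hp hm2
  rw [Real.log_rpow hlq, ← hll] at l1 l2
  -- the slice
  have h8 : 1 ≤ Real.log 8 := one_le_log_three.trans (Real.log_le_log (by norm_num) (by norm_num))
  have h8' : Real.log 8 ≤ 3 := by
    rw [show (8 : ℝ) = 2 ^ 3 by norm_num, Real.log_pow]
    have := Real.log_two_lt_d9
    push_cast
    linarith
  have hk1 : (slice q : ℝ) ≤ ll / Real.log 8 := Nat.floor_le (by positivity)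
  have hk2 : ll / Real.log 8 < (slice q : ℝ) + 1 := Nat.lt_floor_add_one _
  rw [le_div_iff₀ (by linarith)] at hk1
  rw [div_lt_iff₀ (by linarith)] at hk2
  set k : ℝ := (slice q : ℝ) with hk
  have hk0 : 0 ≤ k := Nat.cast_nonneg _
  have hg1 : k + 1 ≤ 2 * ll := by nlinarith
  have hg2 : ll ≤ 3 * (k + 1) := by nlinarith
  set L := max 1 (-Real.log (ψ q)) with hL
  have hL0 : 0 < L := lt_of_lt_of_le one_pos (le_max_left _ _)
  have hLa : a / 2 * (k + 1) ≤ L := le_trans (by nlinarith) (le_max_right _ _)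
  have hLA : L ≤ 3 * (1 + |A|) * (k + 1) := by
    have : A * ll ≤ |A| * ll := mul_le_mul_of_nonneg_right (le_abs_self A) (by linarith)
    refine max_le ?_ ?_ <;> nlinarith [abs_nonneg A]
  have hle : aLoss ψ (fun k => (k : ℝ) + 1) q ≤ K := by
    have d1 := Real.log_le_log (by positivity) hLa
    have d2 := Real.log_le_log hL0 hLA
    rw [Real.log_mul (by positivity) (by positivity)] at d1 d2
    unfold aLoss
    simp only [← hk, ← hL]
    rw [max_eq_right (by linarith : (1 : ℝ) ≤ k + 1), hK]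
    have e1 := neg_le_abs (Real.log (a / 2))
    have e2 := le_abs_self (Real.log (3 * (1 + |A|)))
    have e3 := abs_nonneg (Real.log (a / 2))
    have e4 := abs_nonneg (Real.log (3 * (1 + |A|)))
    rw [add_assoc]
    refine add_le_add le_rfl (abs_le.2 ⟨?_, ?_⟩) <;> linarith
  have h1 := one_le_aLoss ψ (fun k => (k : ℝ) + 1) q
  rw [wA, ← mul_div_assoc, le_div_iff₀ (Real.rpow_pos_of_pos (by linarith) _), mul_comm _ (mu ψ q)]
  exact mul_le_mul_of_nonneg_left (Real.rpow_le_rpow (by linarith) hle he) (mu_nonneg_X hψ q)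

end Vale.Agent.P028A
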